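import Vale.Agent.P116.AD.Spec
import Vale.Agent.P116.Cl.H805.Bridge

/-!
# P116, block [7], rows LAB and TRI: the labels and the triangles with three labels
-/

set_option autoImplicit false

open Set Filter Topology Metric Bornology

namespace Vale.Agent.P116.AD.H944

open H906
open KB720 (cell un clo chi bdc Tk)
open KB.H984 (hitc two)
open Vale.Agent.P116.Star (pt St Rl Tch Ins)
open H730 (Cl)
open KB.Grid841 (col hit)

variable {ι : Type} {K w : Set ℂ} {u : ι → ℂ → ℝ} {d₀ : ℝ} {D : Finset (ℤ × ℤ)} {h : ℝ} {s : ι → ℝ}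
  {QQ MM : Finset (Set ℂ)} {lo hi : ι → Set ℂ → ℝ} {ρ d : ℝ} {v v' x y : ℤ × ℤ} {Q Q' : Set ℂ}

/-! ### distances -/

lemma dist_Cl (hd : 0 < d) (h : Cl v v') : dist (pt d v) (pt d v') ≤ 2 * d := by
  obtain ⟨h1, h2, h3, h4, -, -⟩ := h
  have e1 : |d * v.1 - d * v'.1| ≤ d := by
    rw [← mul_sub, abs_mul, abs_of_pos hd]
    have : |(v.1 : ℝ) - v'.1| ≤ 1 := by
      have : |v.1 - v'.1| ≤ 1 := by rw [abs_le]; constructor <;> omega
      exact_mod_cast this
    nlinarith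
  have e2 : |d * v.2 - d * v'.2| ≤ d := by
    rw [← mul_sub, abs_mul, abs_of_pos hd]
    have : |(v.2 : ℝ) - v'.2| ≤ 1 := by
      have : |v.2 - v'.2| ≤ 1 := by rw [abs_le]; constructor <;> omega
      exact_mod_cast this
    nlinarith
  rw [Complex.dist_eq]
  refine (Complex.norm_le_abs_re_add_abs_im _).trans ?_
  simp only [pt, Complex.sub_re, Complex.sub_im]
  linarith

lemma dist_St (hd : 0 < d) {z : ℂ} (hz : z ∈ St d v) : dist z (pt d v) ≤ 2 * d := by
  have := Vale.Agent.P116.Star.St_subset_closedBall hd v hz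
  rwa [mem_closedBall] at this

lemma near_of_mem_cthickening (hd : 0 < d) (hQ : IsCompact Q) {z : ℂ}
    (hz : z ∈ cthickening (4 * d) Q) : ∃ y ∈ Q, dist z y ≤ 4 * d := by
  rw [hQ.cthickening_eq_biUnion_closedBall (by positivity)] at hz
  obtain ⟨y, hy, hzy⟩ := mem_iUnion₂.1 hz
  exact ⟨y, hy, mem_closedBall.1 hzy⟩

lemma Nb_near (hd : 0 < d) (hQ : IsCompact Q) (hv : v ∈ Nb d Q) :
    ∃ y ∈ Q, dist (pt d v) y ≤ 6 * d := by
  obtain ⟨z, hz, hzQ⟩ := hv
  obtain ⟨y, hy, hzy⟩ := near_of_mem_cthickening hd hQ hzQ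
  refine ⟨y, hy, ?_⟩
  have h1 := dist_St hd hz
  have h2 := dist_triangle (pt d v) z y
  rw [dist_comm (pt d v) z] at h2
  linarith

/-- a vertex off the thick neighbourhood is far from the node -/
lemma notMem_Nb (hd : 0 < d) (hv : v ∉ Nb d Q) {y : ℂ} (hy : y ∈ Q) : 4 * d < dist (pt d v) y := by
  by_contra hn
  push Not at hn
  exact hv ⟨pt d v, Vale.Agent.P116.Star.pt_mem_St hd v,
    mem_cthickening_of_dist_le _ y _ _ hy hn⟩

variable (M : Msh K w u d₀ D h s QQ MM lo hi ρ d)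

include M

lemma far (hQ : Q ∈ QQ) (hQ' : Q' ∈ QQ) (hv : v ∈ Nb d Q) (hv' : v' ∈ Nb d Q') (hc : Cl v v') :
    Q = Q' := by
  by_contra hne
  obtain ⟨y, hy, h1⟩ := Nb_near M.hd (M.Qc Q hQ).1 hv
  obtain ⟨y', hy', h2⟩ := Nb_near M.hd (M.Qc Q' hQ').1 hv'
  have h3 := M.sep Q hQ Q' hQ' hne y hy y' hy'
  have h4 := dist_Cl M.hd hc
  have h5 := dist_triangle y (pt d v) y'
  have h6 := dist_triangle (pt d v) (pt d v') y'
  rw [dist_comm y (pt d v)] at h5
  have := M.hd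
  linarith

/-- points near a vertex of a node are in the region -/
lemma near_un (hQ : Q ∈ QQ) (hv : v ∈ Nb d Q) {z : ℂ} (hz : dist z (pt d v) ≤ 6 * d) :
    z ∈ un d₀ D := by
  obtain ⟨y, hy, h1⟩ := Nb_near M.hd (M.Qc Q hQ).1 hv
  apply M.inR Q hQ
  refine mem_cthickening_of_dist_le z y _ _ hy ?_
  have h2 := dist_triangle z (pt d v) y
  have := M.hd
  linarith

lemma pt_un (hQ : Q ∈ QQ) (hv : v ∈ Nb d Q) : pt d v ∈ un d₀ D :=
  near_un M hQ hv (by rw [dist_self]; have := M.hd; positivity)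

/-! ### the labels -/

omit M in
lemma lab_none : lab u d₀ D h s QQ MM lo ρ d v ≠ none ↔ pt d v ∈ un d₀ D := by
  unfold lab
  split_ifs <;> simp_all

lemma lab_MM (hQ : Q ∈ MM) (hv : v ∈ Nb d Q) :
    lab u d₀ D h s QQ MM lo ρ d v = some (Sum.inl Q) := by
  unfold lab
  have hex : ∃ Q ∈ MM, v ∈ Nb d Q := ⟨Q, hQ, hv⟩
  have he : hex.choose = Q :=
    far M (M.MQ hex.choose_spec.1) (M.MQ hQ) hex.choose_spec.2 hv (Cl.refl v)
  rw [if_neg (not_not.2 (pt_un M (M.MQ hQ) hv)), dif_pos hex, he]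

lemma no_MM (hQ : Q ∈ QQ) (hQM : Q ∉ MM) (hv : v ∈ Nb d Q) : ¬ ∃ Q ∈ MM, v ∈ Nb d Q := by
  rintro ⟨Q', h1, h2⟩
  exact hQM (far M hQ (M.MQ h1) hv h2 (Cl.refl v) ▸ h1)

lemma lab_QQ (hQ : Q ∈ QQ) (hQM : Q ∉ MM) (hv : v ∈ Nb d Q) :
    lab u d₀ D h s QQ MM lo ρ d v = some (Sum.inr fun i => col h (s i) (lo i Q - ρ)) := by
  unfold lab
  have hex : ∃ Q ∈ QQ, v ∈ Nb d Q := ⟨Q, hQ, hv⟩
  have he : hex.choose = Q := far M hex.choose_spec.1 hQ hex.choose_spec.2 hv (Cl.refl v)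
  rw [if_neg (not_not.2 (pt_un M hQ hv)), dif_neg (no_MM M hQ hQM hv), dif_pos hex, he]

lemma lab_off (hR : pt d v ∈ un d₀ D) (hv : ∀ Q ∈ QQ, v ∉ Nb d Q) :
    lab u d₀ D h s QQ MM lo ρ d v = some (Sum.inr fun i => col h (s i) (u i (pt d v))) := by
  unfold lab
  rw [if_neg (not_not.2 hR), dif_neg (fun ⟨Q, h1, h2⟩ => hv Q (M.MQ h1) h2),
    dif_neg (fun ⟨Q, h1, h2⟩ => hv Q h1 h2)]

lemma lab_inl : lab u d₀ D h s QQ MM lo ρ d v = some (Sum.inl Q) ↔ Q ∈ MM ∧ v ∈ Nb d Q := by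
  constructor
  · intro hl
    have hR : pt d v ∈ un d₀ D := lab_none.1 (by rw [hl]; simp)
    by_cases hM : ∃ Q ∈ MM, v ∈ Nb d Q
    · obtain ⟨Q', h1, h2⟩ := hM
      rw [lab_MM M h1 h2] at hl
      obtain rfl : Q' = Q := by simpa using hl
      exact ⟨h1, h2⟩
    · by_cases hQ : ∃ Q ∈ QQ, v ∈ Nb d Q
      · obtain ⟨Q', h1, h2⟩ := hQ
        rw [lab_QQ M h1 (fun h => hM ⟨Q', h, h2⟩) h2] at hl
        simp at hl
      · rw [lab_off M hR (fun Q' h1 h2 => hQ ⟨Q', h1, h2⟩)] at hl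
        simp at hl
  · rintro ⟨h1, h2⟩
    exact lab_MM M h1 h2

omit M in
lemma isPreconnected_cthickening {A : Set ℂ} (hA : IsCompact A) (hc : IsPreconnected A) {δ : ℝ}
    (hδ : 0 ≤ δ) : IsPreconnected (cthickening δ A) := by
  rcases A.eq_empty_or_nonempty with rfl | ⟨a, ha⟩
  · rw [cthickening_empty]; exact isPreconnected_empty
  refine isPreconnected_of_forall a fun z hz => ?_
  have hsub : A ⊆ cthickening δ A := self_subset_cthickening A
  rw [hA.cthickening_eq_biUnion_closedBall hδ] at hz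
  obtain ⟨x, hx, hzx⟩ := mem_iUnion₂.1 hz
  refine ⟨A ∪ closedBall x δ, union_subset hsub (closedBall_subset_cthickening hx δ), Or.inl ha,
    Or.inr hzx, ?_⟩
  exact hc.union x hx (mem_closedBall_self hδ) (convex_closedBall x δ).isPreconnected

omit M in
/-- **ROW 7-LAB** -/
theorem rowLab : RowLab := by
  intro ι _ K w u d₀ D h s QQ MM lo hi ρ d hw hwf M
  refine ⟨fun v => lab_none, ?_, ?_, ?_, fun Q hQ hQM v hv => lab_QQ M hQ hQM hv,
    fun v hR hv => lab_off M hR hv, ?_, ?_, ?_⟩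
  · intro v hv z hz
    refine M.inW (mem_cthickening_of_dist_le z (pt d v) _ _ (lab_none.1 hv) ?_)
    have := dist_St M.hd hz
    have := M.hd
    linarith
  · intro Q hQ
    ext v
    rw [mem_ofPred_eq, lab_inl M]
    exact and_iff_right hQ
  · intro Q hQ
    rw [eq_empty_iff_forall_notMem]
    intro v hv
    exact hQ ((lab_inl M).1 hv).1
  · intro Q hQ
    exact Vale.Agent.P116.Star.cn_Tch d (isPreconnected_cthickening (M.Qc Q hQ).1
      (M.Qc Q hQ).2.1.isPreconnected (by have := M.hd; positivity))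
  · exact Vale.Agent.P116.Star.finite_Ins M.hd hw.isBounded
  · exact Vale.Agent.P116.Star.cn_compl_Ins d hwf hw.isBounded

/-! ### the cell of a triangle -/

omit M in
/-- corners of a cell -/
def cor (c : ℤ × ℤ) : Finset (ℤ × ℤ) := {c, c + (1, 0), c + (0, 1), c + (1, 1)}

omit M in
lemma card_cor (c : ℤ × ℤ) : (cor c).card ≤ 4 := Finset.card_le_four

omit M in
lemma mem_cor {c : ℤ × ℤ} :
    v ∈ cor c ↔ (v.1 = c.1 ∨ v.1 = c.1 + 1) ∧ (v.2 = c.2 ∨ v.2 = c.2 + 1) := by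
  unfold cor
  obtain ⟨a, b⟩ := v
  obtain ⟨a', b'⟩ := c
  simp only [Finset.mem_insert, Finset.mem_singleton, Prod.mk_add_mk, Prod.mk.injEq]
  omega

omit M in
lemma pt_mem_cell (hd : 0 < d) {c : ℤ × ℤ} (hv : v ∈ cor c) : pt d v ∈ cell d c := by
  rw [mem_cor] at hv
  obtain ⟨h1, h2⟩ := hv
  have e1 : (c.1 : ℝ) ≤ v.1 ∧ (v.1 : ℝ) ≤ c.1 + 1 := by
    constructor
    · exact_mod_cast (by omega : c.1 ≤ v.1)
    · exact_mod_cast (by omega : v.1 ≤ c.1 + 1)
  have e2 : (c.2 : ℝ) ≤ v.2 ∧ (v.2 : ℝ) ≤ c.2 + 1 := by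
    constructor
    · exact_mod_cast (by omega : c.2 ≤ v.2)
    · exact_mod_cast (by omega : v.2 ≤ c.2 + 1)
  exact ⟨mul_le_mul_of_nonneg_left e1.1 hd.le, mul_le_mul_of_nonneg_left e1.2 hd.le,
    mul_le_mul_of_nonneg_left e2.1 hd.le, mul_le_mul_of_nonneg_left e2.2 hd.le⟩

omit M in
/-- the cell of a triangle -/
lemma exists_cell (h1 : Cl v x) (h2 : Cl v y) (h3 : Cl x y) :
    ∃ c, v ∈ cor c ∧ x ∈ cor c ∧ y ∈ cor c := by
  obtain ⟨a, b⟩ := v
  obtain ⟨a', b'⟩ := x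
  obtain ⟨a'', b''⟩ := y
  unfold Cl at h1 h2 h3
  simp only at h1 h2 h3
  refine ⟨(min a (min a' a''), min b (min b' b'')), ?_, ?_, ?_⟩ <;> rw [mem_cor] <;>
    simp only <;> omega

/-! ### values near a node -/

/-- the value at a vertex near a node and off it -/
lemma val_near (hQ : Q ∈ QQ) (hv : v ∈ Nb d Q) (hc : Cl v v') (hv' : ∀ Q' ∈ QQ, v' ∉ Nb d Q')
    (i : ι) : u i (pt d v') ∈ Icc (lo i Q - ρ) (hi i Q + ρ) := by
  obtain ⟨y, hy, h1⟩ := Nb_near M.hd (M.Qc Q hQ).1 hv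
  have hd := M.hd
  have h2 := dist_Cl hd hc
  have h3 : dist (pt d v') y ≤ 8 * d := by
    have := dist_triangle (pt d v') (pt d v) y
    rw [dist_comm (pt d v') (pt d v)] at this
    linarith
  have hoff : ∀ Q' ∈ QQ, pt d v' ∉ Q' := fun Q' hQ' h => by
    have := notMem_Nb hd (hv' Q' hQ') h
    rw [dist_self] at this
    linarith
  -- the segment from the vertex to `y` meets the frontier of `Q`
  obtain ⟨z, hz, hzQ⟩ : ∃ z ∈ segment ℝ (pt d v') y, z ∈ frontier Q := by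
    by_contra hn
    push Not at hn
    have hpre : IsPreconnected (segment ℝ (pt d v') y) := (convex_segment _ _).isPreconnected
    have := subset_of_frontier_disjoint hpre ⟨y, right_mem_segment ℝ _ _, hy⟩
      (disjoint_left.2 fun z hz hz' => hn z (by assumption) (by assumption))
    exact hoff Q hQ (this (left_mem_segment ℝ _ _))
  have hzd : dist (pt d v') z ≤ 8 * d := by
    refine le_trans ?_ h3
    obtain ⟨a, b, ha, hb, hab, rfl⟩ := hz
    rw [dist_eq_norm, dist_eq_norm]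
    have e : pt d v' - (a • pt d v' + b • y) = b • (pt d v' - y) := by
      have : a = 1 - b := by linarith
      rw [this]
      module
    rw [e, norm_smul, Real.norm_of_nonneg hb]
    have : b ≤ 1 := by linarith
    nlinarith [norm_nonneg (pt d v' - y)]
  have hzQ' : z ∈ Q := (M.Qc Q hQ).1.isClosed.frontier_subset hzQ
  have hzK : z ∉ K := fun h => disjoint_left.1 (M.Qc Q hQ).2.2 hzQ h
  have hun : pt d v' ∈ un d₀ D := near_un M hQ hv (by
    rw [dist_comm]; linarith)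
  have hA : pt d v' ∈ Ar d d₀ D QQ := by
    refine ⟨self_subset_cthickening _ hun, fun h => ?_⟩
    obtain ⟨Q', hQ', h'⟩ := mem_iUnion₂.1 h
    exact hoff Q' hQ' (interior_subset h')
  have hA' : z ∈ Ar d d₀ D QQ := by
    refine ⟨self_subset_cthickening _ (M.inR Q hQ (self_subset_cthickening _ hzQ')), fun h => ?_⟩
    obtain ⟨Q', hQ', h'⟩ := mem_iUnion₂.1 h
    by_cases hne : Q = Q'
    · subst hne
      exact hzQ.2 h'
    · have := M.sep Q hQ Q' hQ' hne z hzQ' z (interior_subset h')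
      rw [dist_self] at this
      linarith
  have h4 := abs_le.1 (M.mod i _ hA z hA' (by linarith))
  have h5 := M.val i Q hQ z hzQ' hzK
  constructor <;> linarith [h5.1, h5.2, h4.1, h4.2]

lemma lo_le_hi (hQ : Q ∈ QQ) (hv : v ∈ Nb d Q) (hc : Cl v v') (hv' : ∀ Q' ∈ QQ, v' ∉ Nb d Q')
    (i : ι) : lo i Q - ρ ≤ hi i Q + ρ :=
  (val_near M hQ hv hc hv' i).1.trans (val_near M hQ hv hc hv' i).2

omit M in
lemma hitc_of_hit {h s lo hi : ℝ} (H : hit h s lo hi) : hitc h s lo hi := by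
  obtain ⟨k, h1, h2⟩ := H
  exact ⟨k, h1.le, h2⟩

/-- a triangle with three labels, none special, does not touch the nodes -/
lemma no_touch (h1 : Cl v x) (h2 : Cl v y) (h3 : Cl x y)
    (n1 : lab u d₀ D h s QQ MM lo ρ d v ≠ lab u d₀ D h s QQ MM lo ρ d x)
    (n2 : lab u d₀ D h s QQ MM lo ρ d v ≠ lab u d₀ D h s QQ MM lo ρ d y)
    (n3 : lab u d₀ D h s QQ MM lo ρ d x ≠ lab u d₀ D h s QQ MM lo ρ d y)
    (n4 : ∀ Q, lab u d₀ D h s QQ MM lo ρ d v ≠ some (Sum.inl Q)) : ∀ Q ∈ QQ, v ∉ Nb d Q := by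
  intro Q hQ hv
  have hQM : Q ∉ MM := fun h => n4 Q (lab_MM M h hv)
  have hd := M.hd
  have hl := lab_QQ M hQ hQM hv
  have hoth : ∀ {x : ℤ × ℤ}, Cl v x →
      lab u d₀ D h s QQ MM lo ρ d v ≠ lab u d₀ D h s QQ MM lo ρ d x →
      (∀ Q' ∈ QQ, x ∉ Nb d Q') ∧
      lab u d₀ D h s QQ MM lo ρ d x = some (Sum.inr fun i => col h (s i) (u i (pt d x))) := by
    intro x hc hne
    have hx : ∀ Q' ∈ QQ, x ∉ Nb d Q' := by
      intro Q' hQ' hx
      obtain rfl := far M hQ hQ' hv hx hc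
      exact hne (hl.trans (lab_QQ M hQ hQM hx).symm)
    refine ⟨hx, lab_off M (near_un M hQ hv ?_) hx⟩
    rw [dist_comm]
    linarith [dist_Cl hd hc]
  obtain ⟨a1, a2⟩ := hoth h1 n1
  obtain ⟨b1, b2⟩ := hoth h2 n2
  obtain ⟨g1, g2⟩ := M.good Q hQ hQM
  rw [hl, a2] at n1
  rw [hl, b2] at n2
  rw [a2, b2] at n3
  obtain ⟨i, j, hij, k1, k2⟩ := KB.Grid841.three_col M.hh (s := s)
    (lo := fun i => lo i Q - ρ) (hi := fun i => hi i Q + ρ)
    (x := fun i => lo i Q - ρ) (y := fun i => u i (pt d x)) (z := fun i => u i (pt d y))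
    (fun i => by linarith [g1 i]) (fun i => ⟨le_rfl, lo_le_hi M hQ hv h1 a1 i⟩)
    (fun i => val_near M hQ hv h1 a1 i) (fun i => val_near M hQ hv h2 b1 i)
    (fun he => n1 (by rw [he])) (fun he => n2 (by rw [he])) (fun he => n3 (by rw [he]))
  exact g2 ⟨i, j, hij, hitc_of_hit k1, hitc_of_hit k2⟩

omit M in
/-- **ROW 7-TRI** -/
theorem rowTri : RowTri := by
  classical
  intro ι _ K w u r d₀ D h s QQ MM lo hi ρ k hw hwf hd₀ hu hout M hcell TT BB hTT hBB
  set d := d₀ / 2 ^ k with hdd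
  have hd : 0 < d := M.hd
  set Y : Finset (ℤ × ℤ) := TT.filter fun v => two h s (fun i => clo (u i) d v)
    (fun i => chi (u i) d v) with hY
  set Z : Finset (ℤ × ℤ) := BB.filter fun v => ∃ i, hitc h (s i) (clo (u i) d v)
    (chi (u i) d v) with hZ
  have e1 : Set.ncard {v : ℤ × ℤ | v ∈ TT ∧ two h s (fun i => clo (u i) d v)
      (fun i => chi (u i) d v)} = Y.card := by
    rw [← Set.ncard_coe_finset]
    congr 1
    ext v
    simp [hY]
  have e2 : Set.ncard {v : ℤ × ℤ | v ∈ BB ∧ ∃ i, hitc h (s i) (clo (u i) d v)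
      (chi (u i) d v)} = Z.card := by
    rw [← Set.ncard_coe_finset]
    congr 1
    ext v
    simp [hZ]
  rw [e1, e2]
  refine ⟨(Y ∪ Z).biUnion cor, ?_, ?_⟩
  swap
  · calc ((Y ∪ Z).biUnion cor).card ≤ (Y ∪ Z).card * 4 :=
        Finset.card_biUnion_le_card_mul _ _ _ fun c _ => card_cor c
      _ ≤ (Y.card + Z.card) * 4 := Nat.mul_le_mul_right _ (Finset.card_union_le _ _)
      _ = _ := by ring
  rintro b ⟨x, y, c1, c2, c3, n1, n2, n3, s1, s2, s3⟩
  obtain ⟨c, k1, k2, k3⟩ := exists_cell c1 c2 c3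
  have q1 := pt_mem_cell hd k1
  have q2 := pt_mem_cell hd k2
  have q3 := pt_mem_cell hd k3
  have t1 := no_touch M c1 c2 c3 n1 n2 n3 s1
  have t2 := no_touch M c1.symm c3 c2 n1.symm n3 n2 s2
  have t3 := no_touch M c2.symm c3.symm c1 n2.symm n3.symm n1 s3
  -- a vertex of the triangle in the region
  obtain ⟨v, hv, hvR, hvN⟩ : ∃ v, pt d v ∈ cell d c ∧ pt d v ∈ un d₀ D ∧
      ∀ Q ∈ QQ, v ∉ Nb d Q := by
    by_cases hb : pt d b ∈ un d₀ D
    · exact ⟨b, q1, hb, t1⟩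
    · refine ⟨x, q2, ?_, t2⟩
      by_contra hx
      have f1 : lab u d₀ D h s QQ MM lo ρ d b = none := by
        by_contra h
        exact hb (lab_none.1 h)
      have f2 : lab u d₀ D h s QQ MM lo ρ d x = none := by
        by_contra h
        exact hx (lab_none.1 h)
      exact n1 (f1.trans f2.symm)
  have hcQ : ∀ Q ∈ QQ, ∀ z ∈ cell d c, z ∉ Q := by
    intro Q hQ z hz hzQ
    have h1 := notMem_Nb hd (hvN Q hQ) hzQ
    have h2 := KB720.dist_le_of_mem hd hv hz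
    linarith
  have hmeet : (cell d c ∩ (un d₀ D \ ⋃ Q ∈ QQ, interior Q)).Nonempty := by
    refine ⟨pt d v, hv, hvR, fun h => ?_⟩
    obtain ⟨Q, hQ, h'⟩ := mem_iUnion₂.1 h
    exact hcQ Q hQ _ hv (interior_subset h')
  have hmem : c ∈ Y ∪ Z → b ∈ (Y ∪ Z).biUnion cor := fun hc =>
    Finset.mem_biUnion.2 ⟨c, hc, k1⟩
  apply hmem
  by_cases hTk : c ∈ Tk K r d₀ D k
  · -- a cell of `Tk`
    have hsub : cell d c ⊆ un d₀ D \ K := hTk.1
    have hcu : ∀ i, ContinuousOn (u i) (cell d c) := fun i => (hu i).mono fun z hz => (hsub hz).2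
    have l1 := lab_off M (hsub q1).1 t1
    have l2 := lab_off M (hsub q2).1 t2
    have l3 := lab_off M (hsub q3).1 t3
    rw [l1, l2] at n1
    rw [l1, l3] at n2
    rw [l2, l3] at n3
    have hA : ∀ z ∈ cell d c, z ∈ Ar d d₀ D QQ := fun z hz =>
      ⟨self_subset_cthickening _ (hsub hz).1, fun h => by
        obtain ⟨Q, hQ, h'⟩ := mem_iUnion₂.1 h
        exact hcQ Q hQ z hz (interior_subset h')⟩
    have hsz : ∀ i, chi (u i) d c - clo (u i) d c < h := by
      intro i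
      have hne := KB720.cell_nonempty hd.le c
      have hb : chi (u i) d c ≤ clo (u i) d c + ρ := by
        refine csSup_le (hne.image _) ?_
        rintro _ ⟨z, hz, rfl⟩
        have : u i z - ρ ≤ clo (u i) d c := by
          refine le_csInf (hne.image _) ?_
          rintro _ ⟨z', hz', rfl⟩
          have h1 := abs_le.1 (M.mod i z (hA z hz) z' (hA z' hz')
            ((KB720.dist_le_of_mem hd hz hz').trans (by linarith)))
          linarith [h1.1, h1.2]
        linarith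
      have := M.hρh
      have := M.hρ
      linarith
    obtain ⟨i, j, hij, h1, h2⟩ := KB.Grid841.three_col M.hh (s := s)
      (lo := fun i => clo (u i) d c) (hi := fun i => chi (u i) d c)
      (x := fun i => u i (pt d b)) (y := fun i => u i (pt d x)) (z := fun i => u i (pt d y))
      hsz (fun i => KB720.mem_Icc_of_mem (hcu i) q1) (fun i => KB720.mem_Icc_of_mem (hcu i) q2)
      (fun i => KB720.mem_Icc_of_mem (hcu i) q3)
      (fun he => n1 (by rw [he])) (fun he => n2 (by rw [he])) (fun he => n3 (by rw [he]))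
    exact Finset.mem_union_left _ (Finset.mem_filter.2 ⟨(hTT c).2 hTk,
      ⟨i, j, hij, hitc_of_hit h1, hitc_of_hit h2⟩⟩)
  · -- a boundary cell
    have hbd := (hcell c hmeet).resolve_left hTk
    have hcK : Disjoint (cell d c) K := by
      obtain ⟨g1, g2⟩ := hbd
      have hpar := KB720.cell_subset_par hd₀ k c
      refine (hout (KB720.par k c) ?_ ?_).mono_left hpar
      · intro hD
        apply g2
        refine hpar.trans ?_
        exact subset_biUnion_of_mem (u := fun V => cell d₀ V) hD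
      · obtain ⟨z, hz, hz'⟩ := g1
        exact ⟨z, hpar hz, hz'⟩
    have hcu : ∀ i, ContinuousOn (u i) (cell d c) := fun i => (hu i).mono fun z hz hzK =>
      disjoint_left.1 hcK hz hzK
    have hhit : ∀ {v w : ℤ × ℤ}, pt d v ∈ cell d c → pt d w ∈ cell d c →
        (fun i => col h (s i) (u i (pt d v))) ≠ (fun i => col h (s i) (u i (pt d w))) →
        c ∈ Y ∪ Z := by
      intro v w hv hw hne
      obtain ⟨i, hi'⟩ := Function.ne_iff.1 hne
      refine Finset.mem_union_right _ (Finset.mem_filter.2 ⟨(hBB c).2 hbd, i, ?_⟩)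
      by_contra hn
      exact hi' (KB.Grid841.col_const M.hh (fun hh => hn (hitc_of_hit hh))
        (KB720.mem_Icc_of_mem (hcu i) hv) (KB720.mem_Icc_of_mem (hcu i) hw))
    have hlab : ∀ {v : ℤ × ℤ}, (∀ Q ∈ QQ, v ∉ Nb d Q) →
        lab u d₀ D h s QQ MM lo ρ d v ≠ none →
        lab u d₀ D h s QQ MM lo ρ d v = some (Sum.inr fun i => col h (s i) (u i (pt d v))) :=
      fun hv hn => lab_off M (lab_none.1 hn) hv
    by_cases hb : lab u d₀ D h s QQ MM lo ρ d b = none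
    · have hx := hlab t2 (fun h => n1 (hb.trans h.symm))
      have hy := hlab t3 (fun h => n2 (hb.trans h.symm))
      exact hhit q2 q3 fun he => n3 (by rw [hx, hy, he])
    · have hb' := hlab t1 hb
      by_cases hx : lab u d₀ D h s QQ MM lo ρ d x = none
      · have hy := hlab t3 (fun h => n3 (hx.trans h.symm))
        exact hhit q1 q3 fun he => n2 (by rw [hb', hy, he])
      · have hx' := hlab t2 hx
        exact hhit q1 q2 fun he => n1 (by rw [hb', hx', he])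

end Vale.Agent.P116.AD.H944
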